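import Mathlib

/-!
Helper lemmas for P027 (Hilbert's tenth problem over the rationals).

* `intValued_ratFunc`: a quotient of two rational polynomials that takes integer values
  at every rational point where the denominator does not vanish is constant.
* `exists_line_poly`: the restriction of a multivariate polynomial to an affine line is a
  univariate polynomial whose degree is at most the total degree.
-/

namespace Vale.Agent.Lib.P027

open Polynomial Topology

/-- If `N / D` takes an integer value at every rational `t` with `D t ≠ 0`, and `D t0 ≠ 0`,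
then `N = (N t0 / D t0) * D` as polynomials. -/
theorem intValued_ratFunc (N D : ℚ[X]) (t0 : ℚ) (hD : D.eval t0 ≠ 0)
    (hint : ∀ t : ℚ, D.eval t ≠ 0 → ∃ z : ℤ, N.eval t / D.eval t = (z : ℚ)) :
    N = C (N.eval t0 / D.eval t0) * D := by
  set c : ℚ := N.eval t0 / D.eval t0 with hc
  obtain ⟨z0, hz0⟩ := hint t0 hD
  have hcontD : ContinuousAt (fun t : ℚ => D.eval t) t0 := D.continuous.continuousAt
  have hcontN : ContinuousAt (fun t : ℚ => N.eval t) t0 := N.continuous.continuousAt
  have hcont : ContinuousAt (fun t : ℚ => N.eval t / D.eval t) t0 := hcontN.div hcontD hD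
  have h1 : ∀ᶠ t in 𝓝 t0, D.eval t ≠ 0 := hcontD.eventually_ne hD
  have h2 : ∀ᶠ t in 𝓝 t0, dist (N.eval t / D.eval t) (N.eval t0 / D.eval t0) < 1 :=
    (Metric.continuousAt_iff'.mp hcont) 1 one_pos
  have h3 : {t : ℚ | D.eval t ≠ 0 ∧ dist (N.eval t / D.eval t) (N.eval t0 / D.eval t0) < 1}
      ∈ 𝓝 t0 := h1.and h2
  have hinf := infinite_of_mem_nhds t0 h3
  have hsub : {t : ℚ | D.eval t ≠ 0 ∧ dist (N.eval t / D.eval t) (N.eval t0 / D.eval t0) < 1}
      ⊆ {t | (N - C c * D).IsRoot t} := by
    intro t ht
    obtain ⟨htD, htd⟩ := ht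
    obtain ⟨z, hz⟩ := hint t htD
    rw [hz, hz0, Rat.dist_eq] at htd
    have hzz : z = z0 := by
      have h4 : |((z - z0 : ℤ) : ℝ)| < 1 := by
        push_cast
        exact htd
      have h5 : |z - z0| < 1 := by exact_mod_cast h4
      have h6 : z - z0 = 0 := Int.abs_lt_one_iff.mp h5
      linarith
    have h7 : N.eval t / D.eval t = c := by rw [hz, hzz, hc, hz0]
    have h8 : N.eval t = c * D.eval t := by
      field_simp at h7
      linarith
    simp [Polynomial.IsRoot, h8]
  have hzero : N - C c * D = 0 :=
    Polynomial.eq_zero_of_infinite_isRoot _ (hinf.mono hsub)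
  exact sub_eq_zero.mp hzero

/-- Restriction of a multivariate polynomial to the line `t ↦ P + t • v`. -/
theorem exists_line_poly {σ : Type*} (g : MvPolynomial σ ℚ) (P v : σ → ℚ) :
    ∃ p : ℚ[X], p.natDegree ≤ g.totalDegree ∧
      ∀ t : ℚ, p.eval t = MvPolynomial.eval (fun i => P i + t * v i) g := by
  refine ⟨MvPolynomial.aeval (fun i => C (P i) + C (v i) * X) g, ?_, ?_⟩
  · have h := MvPolynomial.aeval_natDegree_le (m := g.totalDegree) (n := 1) g le_rfl
      (fun i => C (P i) + C (v i) * X) (fun i => by
        refine (Polynomial.natDegree_add_le _ _).trans ?_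
        rw [max_le_iff]
        refine ⟨by simp, ?_⟩
        exact (Polynomial.natDegree_C_mul_le _ _).trans (by simp))
    simpa using h
  · intro t
    have h := MvPolynomial.comp_aeval (R := ℚ) (fun i : σ => C (P i) + C (v i) * X)
      (Polynomial.aeval t : ℚ[X] →ₐ[ℚ] ℚ)
    have h2 := congrArg (fun φ => φ g) h
    simp only [AlgHom.comp_apply, Polynomial.coe_aeval_eq_eval] at h2
    rw [h2]
    simp only [eval_add, eval_C, eval_mul, eval_X]
    rw [MvPolynomial.aeval_eq_eval]
    have h3 : (fun i => P i + v i * t) = (fun i => P i + t * v i) := by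
      funext i
      ring
    rw [h3]

end Vale.Agent.Lib.P027
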