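import Vale.Agent.Lib.P027.Basic

/-!
Integer-valued quotients of multivariate polynomials are constant.
-/

namespace Vale.Agent.Lib.P027

open Polynomial

/-- If `N / D` (multivariate rational polynomials, `D ≠ 0`) takes an integer value at every
rational point where `D` does not vanish, then `N = z * D` for some integer `z`. -/
theorem intValued_mvRatFunc {σ : Type*} (N D : MvPolynomial σ ℚ) (hD : D ≠ 0)
    (hint : ∀ t : σ → ℚ, MvPolynomial.eval t D ≠ 0 →
      ∃ z : ℤ, MvPolynomial.eval t N / MvPolynomial.eval t D = (z : ℚ)) :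
    ∃ z : ℤ, N = MvPolynomial.C (z : ℚ) * D := by
  have hex : ∃ t0 : σ → ℚ, MvPolynomial.eval t0 D ≠ 0 := by
    by_contra hcon
    push Not at hcon
    apply hD
    apply MvPolynomial.funext
    intro x
    simp [hcon x]
  obtain ⟨t0, ht0⟩ := hex
  obtain ⟨z0, hz0⟩ := hint t0 ht0
  refine ⟨z0, ?_⟩
  apply MvPolynomial.funext
  intro t1
  obtain ⟨n, -, hn⟩ := exists_line_poly N t0 (fun i => t1 i - t0 i)
  obtain ⟨d, -, hd⟩ := exists_line_poly D t0 (fun i => t1 i - t0 i)
  have f0 : (fun i => t0 i + 0 * (t1 i - t0 i)) = t0 := by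
    funext i
    ring
  have f1 : (fun i => t0 i + 1 * (t1 i - t0 i)) = t1 := by
    funext i
    ring
  have hd0 : d.eval 0 ≠ 0 := by
    rw [hd 0, f0]
    exact ht0
  have hint' : ∀ s : ℚ, d.eval s ≠ 0 → ∃ z : ℤ, n.eval s / d.eval s = (z : ℚ) := by
    intro s hs
    rw [hd s] at hs
    obtain ⟨z, hz⟩ := hint _ hs
    exact ⟨z, by rw [hn s, hd s]; exact hz⟩
  have hid := intValued_ratFunc n d 0 hd0 hint'
  have hc : n.eval 0 / d.eval 0 = (z0 : ℚ) := by
    rw [hn 0, hd 0, f0]
    exact hz0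
  rw [hc] at hid
  have h1 := congrArg (fun q => Polynomial.eval 1 q) hid
  simp only [eval_mul, eval_C] at h1
  rw [hn 1, hd 1, f1] at h1
  simp [h1]

end Vale.Agent.Lib.P027
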