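import Vale.Agent.Lib.P027.Basic

/-!
Quadrics: a polynomial of total degree at most two whose rational zeros all have an
integral coordinate `i0` cannot have three zeros with pairwise distinct `i0`-coordinates.
-/

namespace Vale.Agent.Lib.P027

open Polynomial

variable {σ : Type*}

/-- Along any line a polynomial of total degree at most two is a quadratic function. -/
theorem quad_line (g : MvPolynomial σ ℚ) (hg : g.totalDegree ≤ 2) (P v : σ → ℚ) :
    ∃ a b c : ℚ, ∀ t : ℚ,
      MvPolynomial.eval (fun i => P i + t * v i) g = a + b * t + c * t ^ 2 := by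
  obtain ⟨p, hp, hpe⟩ := exists_line_poly g P v
  refine ⟨p.coeff 0, p.coeff 1, p.coeff 2, fun t => ?_⟩
  rw [← hpe t, Polynomial.eval_eq_sum_range' (n := 3) (by omega) t]
  simp [Finset.sum_range_succ]

/-- A line on which the coordinate `i0` is not constant cannot lie in the zero set. -/
theorem no_line (g : MvPolynomial σ ℚ) (i0 : σ)
    (hA : ∀ P : σ → ℚ, MvPolynomial.eval P g = 0 → ∃ z : ℤ, P i0 = (z : ℚ))
    (P v : σ → ℚ) (hv : v i0 ≠ 0)
    (hline : ∀ t : ℚ, MvPolynomial.eval (fun i => P i + t * v i) g = 0) : False := by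
  obtain ⟨z0, hz0⟩ := hA _ (hline 0)
  obtain ⟨z1, hz1⟩ := hA _ (hline (1 / (2 * v i0)))
  simp only [zero_mul, add_zero] at hz0
  rw [hz0] at hz1
  have h : (2 : ℚ) * ((z1 - z0 : ℤ) : ℚ) = 1 := by
    push_cast
    rw [← hz1]
    field_simp
    ring
  have h2 : (2 : ℤ) * (z1 - z0) = 1 := by exact_mod_cast h
  omega

/-- Key statement: no three zeros with pairwise distinct `i0`-coordinates. -/
theorem no_three (g : MvPolynomial σ ℚ) (hg : g.totalDegree ≤ 2) (i0 : σ)
    (hA : ∀ P : σ → ℚ, MvPolynomial.eval P g = 0 → ∃ z : ℤ, P i0 = (z : ℚ))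
    (P1 P2 P3 : σ → ℚ) (h1 : MvPolynomial.eval P1 g = 0) (h2 : MvPolynomial.eval P2 g = 0)
    (h3 : MvPolynomial.eval P3 g = 0)
    (h12 : P1 i0 ≠ P2 i0) (h13 : P1 i0 ≠ P3 i0) (h23 : P2 i0 ≠ P3 i0) : False := by
  -- directions
  set u : σ → ℚ := fun i => P2 i - P1 i with hu
  set w : σ → ℚ := fun i => P3 i - P2 i with hw
  have hu0 : u i0 ≠ 0 := by
    simp only [hu]
    exact sub_ne_zero.mpr (Ne.symm h12)
  have hw0 : w i0 ≠ 0 := by
    simp only [hw]
    exact sub_ne_zero.mpr (Ne.symm h23)
  have huw0 : u i0 + w i0 ≠ 0 := by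
    simp only [hu, hw]
    intro h
    apply h13
    linarith
  -- polynomials in s
  obtain ⟨F1, -, hF1⟩ := exists_line_poly g P2 w
  obtain ⟨F2, -, hF2⟩ := exists_line_poly g (fun i => P1 i - u i) (fun i => - w i)
  set bP : ℚ[X] := C (1 / 2 : ℚ) * (F1 - F2) with hbP
  set cP : ℚ[X] := C (1 / 2 : ℚ) * (F1 + F2) with hcP
  -- key identity
  have key : ∀ s t : ℚ, MvPolynomial.eval (fun i => P1 i + t * (u i + s * w i)) g
      = bP.eval s * t + cP.eval s * t ^ 2 := by
    intro s t
    obtain ⟨a, b, c, habc⟩ := quad_line g hg P1 (fun i => u i + s * w i)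
    have e0 := habc 0
    have e1 := habc 1
    have e2 := habc (-1)
    have f0 : (fun i => P1 i + 0 * (u i + s * w i)) = P1 := by
      funext i
      ring
    have f1 : (fun i => P1 i + 1 * (u i + s * w i)) = (fun i => P2 i + s * w i) := by
      funext i
      simp only [hu]
      ring
    have f2 : (fun i => P1 i + (-1) * (u i + s * w i)) = (fun i => (P1 i - u i) + s * (- w i)) := by
      funext i
      ring
    rw [f0, h1] at e0
    rw [f1, ← hF1 s] at e1
    rw [f2, ← hF2 s] at e2
    rw [habc t]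
    simp only [hbP, hcP, eval_mul, eval_C, eval_sub, eval_add]
    have ha : a = 0 := by linarith
    have hb : b = 1 / 2 * (F1.eval s - F2.eval s) := by linarith
    have hc : c = 1 / 2 * (F1.eval s + F2.eval s) := by linarith
    rw [ha, hb, hc]
    ring
  -- numerator polynomial
  set N : ℚ[X] := -(bP * (C (u i0) + C (w i0) * X)) with hN
  obtain ⟨z1, hz1⟩ := hA P1 h1
  have hint : ∀ s : ℚ, cP.eval s ≠ 0 → ∃ z : ℤ, N.eval s / cP.eval s = (z : ℚ) := by
    intro s hs
    have hzero : MvPolynomial.eval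
        (fun i => P1 i + (-(bP.eval s) / cP.eval s) * (u i + s * w i)) g = 0 := by
      rw [key]
      field_simp
      ring
    obtain ⟨z, hz⟩ := hA _ hzero
    refine ⟨z - z1, ?_⟩
    push_cast
    rw [← hz, ← hz1]
    simp only [hN, eval_neg, eval_mul, eval_add, eval_C, eval_X]
    field_simp
    ring
  -- s = 0
  have k0 : ∀ t : ℚ, MvPolynomial.eval (fun i => P1 i + t * u i) g
      = bP.eval 0 * t + cP.eval 0 * t ^ 2 := by
    intro t
    have h := key 0 t
    have f : (fun i => P1 i + t * (u i + 0 * w i)) = (fun i => P1 i + t * u i) := by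
      funext i
      ring
    rw [f] at h
    exact h
  have hb0 : bP.eval 0 = - cP.eval 0 := by
    have h := k0 1
    have f : (fun i => P1 i + 1 * u i) = P2 := by
      funext i
      simp only [hu]
      ring
    rw [f, h2] at h
    linarith
  have hc0 : cP.eval 0 ≠ 0 := by
    intro hc
    apply no_line g i0 hA P1 u hu0
    intro t
    rw [k0 t, hb0, hc]
    ring
  -- the polynomial identity
  have hid := intValued_ratFunc N cP 0 hc0 hint
  have hN0 : N.eval 0 / cP.eval 0 = u i0 := by
    simp only [hN, eval_neg, eval_mul, eval_add, eval_C, eval_X, hb0]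
    field_simp
    ring
  rw [hN0] at hid
  -- s = 1
  have k1 : ∀ t : ℚ, MvPolynomial.eval (fun i => P1 i + t * (u i + w i)) g
      = bP.eval 1 * t + cP.eval 1 * t ^ 2 := by
    intro t
    have h := key 1 t
    have f : (fun i => P1 i + t * (u i + 1 * w i)) = (fun i => P1 i + t * (u i + w i)) := by
      funext i
      ring
    rw [f] at h
    exact h
  have hb1 : bP.eval 1 = - cP.eval 1 := by
    have h := k1 1
    have f : (fun i => P1 i + 1 * (u i + w i)) = P3 := by
      funext i
      simp only [hu, hw]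
      ring
    rw [f, h3] at h
    linarith
  have hc1 : cP.eval 1 = 0 := by
    have h := congrArg (fun p => Polynomial.eval 1 p) hid
    simp only [hN, eval_neg, eval_mul, eval_add, eval_C, eval_X, hb1] at h
    have h' : cP.eval 1 * w i0 = 0 := by linarith
    rcases mul_eq_zero.mp h' with h'' | h''
    · exact h''
    · exact absurd h'' hw0
  apply no_line g i0 hA P1 (fun i => u i + w i) huw0
  intro t
  rw [k1 t, hb1, hc1]
  ring

end Vale.Agent.Lib.P027
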